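import Vale.Agent.P139.H560.Mono3

/-!
# `|Q_∞|` is strictly decreasing outside the core: the interface form (`RadODE`)
-/

open Set Filter Topology ComplexConjugate Complex

namespace Vale.Agent.P139.H560

open Vale.Agent.P139.H460

theorem ode_of_radODE {w : ℝ} {Z Z1 : ℝ → ℂ} {s : Set ℝ}
    (h : RadODE 13 0 w (fun _ => 0) Z Z1 s) :
    ∀ r ∈ s, HasDerivAt Z1 (-(pp r) * Z1 r - (w:ℂ) * Z r) r := by
  intro r hr
  refine (h.h2 r hr).congr_deriv ?_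
  simp only [pp]
  push_cast
  ring

/-- Everything about the hard-wall profile outside the core, for all parameters in a box of size
`10⁻⁴` around the exact zero. -/
theorem hardwall {w R b : ℝ} (hw1 : 0.67403 ≤ w) (hw2 : w ≤ 0.67422)
    (hR1 : 3.26423 ≤ R) (hR2 : R ≤ 3.26444) {Z Z1 : ℝ → ℂ} (cZ : ContinuousOn Z (Icc R b))
    (cZ1 : ContinuousOn Z1 (Icc R b)) (h : RadODE 13 0 w (fun _ => 0) Z Z1 (Ioo R b))
    (h1 : Z R = 1) (h2 : Z1 R = 0) :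
    (∀ r ∈ Icc R b, Z r ≠ 0) ∧
    (∀ r ∈ Ioc R b, (conj (Z r) * Z1 r).re < 0) ∧
    (∀ r ∈ Ioc R b, (Z1 r / Z r).re < 0) ∧
    StrictAntiOn (fun r => ‖Z r‖) (Icc R b) ∧
    (∀ r ∈ Ioc R b, ‖Z r‖ < 1) ∧
    (∀ η : ℝ, 0 ≤ η → η ≤ 1/16 → ∀ r ∈ Icc (R + η) b, ‖Z r‖ ≤ Real.exp (-(η ^ 2) / 4)) := by
  have hZ1 := ode_of_radODE h
  have hm := hardwall_main hw1 hw2 hR1 hR2 cZ cZ1 h.h1 hZ1 h1 h2
  have ha := hardwall_strictAnti hw1 hw2 hR1 hR2 cZ cZ1 h.h1 hZ1 h1 h2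
  refine ⟨hm.1, hm.2.1, ?_, ha, ?_, ?_⟩
  · intro r hr
    have h3 := hm.2.1 r hr
    have h4 := hm.1 r ⟨hr.1.le, hr.2⟩
    have h5 : Z1 r / Z r = (conj (Z r) * Z1 r) / ((Complex.normSq (Z r) : ℝ) : ℂ) := by
      rw [← Complex.mul_conj]
      have h6 : conj (Z r) ≠ 0 := by simpa using h4
      field_simp
    rw [h5, Complex.div_ofReal_re]
    exact div_neg_of_neg_of_pos h3 (Complex.normSq_pos.2 h4)
  · intro r hr
    have hRb : R ≤ b := hr.1.le.trans hr.2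
    have := ha (left_mem_Icc.2 hRb) ⟨hr.1.le, hr.2⟩ hr.1
    simpa [h1] using this
  · intro η hη0 hη1
    exact hardwall_le_exp hw1 hw2 hR1 hR2 cZ cZ1 h.h1 hZ1 h1 h2 hη0 hη1

end Vale.Agent.P139.H560
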