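import Vale.Agent.P139.H560.Iv

/-!
Numerical inequality for the funnel around the approximate Riccati solution
`N_a(r) = (2 i w + n₃ y + y² s(y)) / r`, `y = 1/r²`.
-/

namespace Vale.Agent.P139.H560

/-! ## the real polynomials -/

/-- `Re s` -/
noncomputable def sr (y : ℝ) : ℝ := 244 + y * (3056 + y * (-52880 + y * 304416))
/-- `Im s` -/
noncomputable def si (y : ℝ) : ℝ := -516 + y * (8194 + y * (-67912 + y * 279615))
noncomputable def dsr (y : ℝ) : ℝ := 3056 + y * (2 * (-52880) + y * (3 * 304416))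
noncomputable def dsi (y : ℝ) : ℝ := 8194 + y * (2 * (-67912) + y * (3 * 279615))

noncomputable def n3r (w : ℝ) : ℝ := -44 * w
noncomputable def n3i (w : ℝ) : ℝ := -8 * (w * w)
noncomputable def Tr (w y : ℝ) : ℝ := n3r w + y * sr y
noncomputable def Ti (w y : ℝ) : ℝ := n3i w + y * si y

/-- real part of `D / y²` -/
noncomputable def Dr (w y : ℝ) : ℝ :=
  -(1/2) * si y + 9 * n3r w - 4 * (w * n3i w) + y * (7 * sr y - 4 * (w * si y))
    - 2 * (y * (y * dsr y)) + y * (Tr w y * Tr w y - Ti w y * Ti w y)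
/-- imaginary part of `D / y²` -/
noncomputable def Di (w y : ℝ) : ℝ :=
  (1/2) * sr y + 9 * n3i w + 4 * (w * n3r w) + y * (7 * si y + 4 * (w * sr y))
    - 2 * (y * (y * dsi y)) + 2 * (y * (Tr w y * Ti w y))
/-- the allowed size of `D / y²`, divided by `θ = 1/8` -/
noncomputable def Aa (w y : ℝ) : ℝ :=
  396 * w - 7 * (y * sr y) + 2 * (y * (y * dsr y)) - (17/8) * (y * (Tr w y * Tr w y))

/-! ## the same as expressions; variable 0 is `y`, variable 1 is `w` -/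
namespace E
open Ex
def c (p : ℤ) : Ex := .q p 1
def y : Ex := .v 0
def w : Ex := .v 1
def sr : Ex := .add (c 244) (.mul y (.add (c 3056) (.mul y (.add (c (-52880)) (.mul y (c 304416))))))
def si : Ex := .add (c (-516)) (.mul y (.add (c 8194) (.mul y (.add (c (-67912)) (.mul y (c 279615))))))
def dsr : Ex := .add (c 3056) (.mul y (.add (c (-105760)) (.mul y (c 913248))))
def dsi : Ex := .add (c 8194) (.mul y (.add (c (-135824)) (.mul y (c 838845))))
def n3r : Ex := .mul (c (-44)) w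
def n3i : Ex := .mul (c (-8)) (.mul w w)
def Tr : Ex := .add n3r (.mul y sr)
def Ti : Ex := .add n3i (.mul y si)
def Dr : Ex :=
  .add (.sub (.add (.sub (.add (.mul (.q (-1) 2) si) (.mul (c 9) n3r)) (.mul (c 4) (.mul w n3i)))
    (.mul y (.sub (.mul (c 7) sr) (.mul (c 4) (.mul w si)))))
    (.mul (c 2) (.mul y (.mul y dsr)))) (.mul y (.sub (.mul Tr Tr) (.mul Ti Ti)))
def Di : Ex :=
  .add (.sub (.add (.add (.add (.mul (.q 1 2) sr) (.mul (c 9) n3i)) (.mul (c 4) (.mul w n3r)))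
    (.mul y (.add (.mul (c 7) si) (.mul (c 4) (.mul w sr)))))
    (.mul (c 2) (.mul y (.mul y dsi)))) (.mul (c 2) (.mul y (.mul Tr Ti)))
def Aa : Ex :=
  .sub (.add (.sub (.mul (c 396) w) (.mul (c 7) (.mul y sr))) (.mul (c 2) (.mul y (.mul y dsr))))
    (.mul (.q 17 8) (.mul y (.mul Tr Tr)))
end E

variable (ρ : ℕ → ℝ)

theorem ev_sr : E.sr.eval ρ = sr (ρ 0) := by
  simp only [E.sr, E.c, E.y, Ex.eval, sr]; push_cast; ring
theorem ev_si : E.si.eval ρ = si (ρ 0) := by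
  simp only [E.si, E.c, E.y, Ex.eval, si]; push_cast; ring
theorem ev_dsr : E.dsr.eval ρ = dsr (ρ 0) := by
  simp only [E.dsr, E.c, E.y, Ex.eval, dsr]; push_cast; ring
theorem ev_dsi : E.dsi.eval ρ = dsi (ρ 0) := by
  simp only [E.dsi, E.c, E.y, Ex.eval, dsi]; push_cast; ring
theorem ev_n3r : E.n3r.eval ρ = n3r (ρ 1) := by
  simp only [E.n3r, E.c, E.w, Ex.eval, n3r]; push_cast; ring
theorem ev_n3i : E.n3i.eval ρ = n3i (ρ 1) := by
  simp only [E.n3i, E.c, E.w, Ex.eval, n3i]; push_cast; ring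
theorem ev_Tr : E.Tr.eval ρ = Tr (ρ 1) (ρ 0) := by
  simp only [E.Tr, Ex.eval, ev_n3r, ev_sr, Tr, E.y]
theorem ev_Ti : E.Ti.eval ρ = Ti (ρ 1) (ρ 0) := by
  simp only [E.Ti, Ex.eval, ev_n3i, ev_si, Ti, E.y]
theorem ev_Dr : E.Dr.eval ρ = Dr (ρ 1) (ρ 0) := by
  simp only [E.Dr, Ex.eval, ev_n3i, ev_n3r, ev_si, ev_sr, ev_dsr, ev_Tr, ev_Ti, Dr, E.y, E.w, E.c]
  push_cast; ring
theorem ev_Di : E.Di.eval ρ = Di (ρ 1) (ρ 0) := by
  simp only [E.Di, Ex.eval, ev_n3i, ev_n3r, ev_si, ev_sr, ev_dsi, ev_Tr, ev_Ti, Di, E.y, E.w, E.c]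
  push_cast; ring
theorem ev_Aa : E.Aa.eval ρ = Aa (ρ 1) (ρ 0) := by
  simp only [E.Aa, Ex.eval, ev_sr, ev_dsr, ev_Tr, Aa, E.y, E.w, E.c]
  push_cast; ring

/-! ## the check -/

/-- the `i`-th interval for `y`, `[i/2816, (i+1)/2816]` -/
def yI (i : ℕ) : Iv := ⟨((i:ℤ) * sc) / 2816, -((-(((i:ℤ)+1) * sc)) / 2816)⟩
/-- the interval for `w` -/
def wI : Iv := ⟨(67402 * (sc:ℤ)) / 100000, -((-(67423 * (sc:ℤ))) / 100000)⟩

def env (i : ℕ) : ℕ → Iv := fun k => if k = 0 then yI i else wI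

def chk (i : ℕ) : Bool :=
  let a := E.Aa.iev (env i)
  let dr := E.Dr.iev (env i)
  let di := E.Di.iev (env i)
  let t := E.Tr.iev (env i)
  let P := Iv.sub (Iv.sub (Iv.mul (Iv.rat 1 64) (Iv.mul a a)) (Iv.mul dr dr)) (Iv.mul di di)
  decide (0 < a.lo) && (decide (0 < P.lo) && decide (t.hi < 0))

def chkAll (n : ℕ) : Bool := (List.range n).all chk

theorem chkAll_true : chkAll 255 = true := by decide +kernel

theorem mem_yI {y : ℝ} {i : ℕ} (h1 : (i:ℝ) / 2816 ≤ y) (h2 : y ≤ ((i:ℝ)+1) / 2816) :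
    Iv.Mem y (yI i) := by
  have hs := sc_pos
  constructor
  · have h := Int.ediv_mul_le ((i:ℤ) * sc) (show (2816:ℤ) ≠ 0 by norm_num)
    have h' : ((((i:ℤ) * sc) / 2816 : ℤ) : ℝ) * 2816 ≤ (i:ℝ) * sc := by exact_mod_cast h
    simp only [yI]
    have h3 : (i:ℝ) * sc ≤ y * sc * 2816 := by
      rw [div_le_iff₀ (by norm_num)] at h1
      nlinarith
    linarith
  · have h := Int.ediv_mul_le (-(((i:ℤ)+1) * sc)) (show (2816:ℤ) ≠ 0 by norm_num)
    have h' : (((-(((i:ℤ)+1) * sc)) / 2816 : ℤ) : ℝ) * 2816 ≤ -(((i:ℝ)+1) * sc) := by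
      exact_mod_cast h
    simp only [yI]
    push_cast
    have h3 : y * sc * 2816 ≤ ((i:ℝ)+1) * sc := by
      rw [le_div_iff₀ (by norm_num)] at h2
      nlinarith
    push_cast at h'
    linarith

theorem mem_wI {w : ℝ} (h1 : 0.67402 ≤ w) (h2 : w ≤ 0.67423) : Iv.Mem w wI := by
  have hs := sc_pos
  constructor
  · have h := Int.ediv_mul_le (67402 * (sc:ℤ)) (show (100000:ℤ) ≠ 0 by norm_num)
    have h' : (((67402 * (sc:ℤ)) / 100000 : ℤ) : ℝ) * 100000 ≤ 67402 * sc := by exact_mod_cast h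
    simp only [wI]
    nlinarith
  · have h := Int.ediv_mul_le (-(67423 * (sc:ℤ))) (show (100000:ℤ) ≠ 0 by norm_num)
    have h' : (((-(67423 * (sc:ℤ))) / 100000 : ℤ) : ℝ) * 100000 ≤ -(67423 * sc) := by
      exact_mod_cast h
    simp only [wI]
    push_cast
    nlinarith

/-- **The numerical inequality.** -/
theorem num_ineq {w y : ℝ} (hw1 : 0.67402 ≤ w) (hw2 : w ≤ 0.67423) (hy1 : 0 ≤ y)
    (hy2 : y ≤ 0.0905) :
    0 < Aa w y ∧ Dr w y ^ 2 + Di w y ^ 2 < (1/8 * Aa w y) ^ 2 ∧ Tr w y < 0 := by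
  set i : ℕ := ⌊y * 2816⌋₊ with hi
  have hy0 : 0 ≤ y * 2816 := by positivity
  have h1 : (i:ℝ) ≤ y * 2816 := Nat.floor_le hy0
  have h2 : y * 2816 < (i:ℝ) + 1 := Nat.lt_floor_add_one _
  have hi255 : i < 255 := by
    have : (i:ℝ) < 255 := by nlinarith
    exact_mod_cast this
  have hm : ∀ k, Iv.Mem ((fun k : ℕ => if k = 0 then y else w) k) (env i k) := by
    intro k
    by_cases hk : k = 0
    · simp only [env, hk, if_true]
      apply mem_yI
      · rw [div_le_iff₀ (by norm_num)]; exact h1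
      · rw [le_div_iff₀ (by norm_num)]; exact h2.le
    · simp only [env, hk, if_false]
      exact mem_wI hw1 hw2
  have hc : chk i = true := by
    have := chkAll_true
    unfold chkAll at this
    rw [List.all_eq_true] at this
    exact this i (List.mem_range.2 hi255)
  have hA := Ex.mem_iev hm E.Aa
  have hDr := Ex.mem_iev hm E.Dr
  have hDi := Ex.mem_iev hm E.Di
  have hT := Ex.mem_iev hm E.Tr
  rw [ev_Aa] at hA
  rw [ev_Dr] at hDr
  rw [ev_Di] at hDi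
  rw [ev_Tr] at hT
  simp only [if_true, one_ne_zero, if_false] at hA hDr hDi hT
  unfold chk at hc
  simp only [Bool.and_eq_true, decide_eq_true_eq] at hc
  obtain ⟨c1, c2, c3⟩ := hc
  refine ⟨Iv.pos_of_mem hA c1, ?_, Iv.neg_of_mem hT c3⟩
  have hP := Iv.mem_sub (Iv.mem_sub (Iv.mem_mul (Iv.mem_rat 1 64) (Iv.mem_mul hA hA))
    (Iv.mem_mul hDr hDr)) (Iv.mem_mul hDi hDi)
  have := Iv.pos_of_mem hP c2
  push_cast at this
  nlinarith

end Vale.Agent.P139.H560
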