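import Mathlib

/-!
A barrier lemma and the funnel lemma for the second order linear equation
`Q'' + p Q' + q Q = 0` around an approximate solution `Na` of the Riccati equation.
-/

open Set Filter Topology ComplexConjugate

namespace Vale.Agent.P139.H560

theorem barrier {f : ℝ → ℝ} {a b : ℝ} (hc : ContinuousOn f (Icc a b)) (h0 : f a < 0)
    (H : ∀ x ∈ Ioo a b, (∀ y ∈ Ico a x, f y < 0) → f x = 0 → ∃ f', HasDerivAt f f' x ∧ f' < 0) :
    ∀ x ∈ Ico a b, f x < 0 := by
  by_contra hcon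
  push Not at hcon
  obtain ⟨x1, hx1, hfx1⟩ := hcon
  have hax1 : a ≤ x1 := hx1.1
  have hsub : Icc a x1 ⊆ Icc a b := Icc_subset_Icc_right hx1.2.le
  set S : Set ℝ := {x ∈ Icc a x1 | 0 ≤ f x} with hS
  have hSc : IsClosed S := by
    have : S = Icc a x1 ∩ f ⁻¹' (Ici 0) := by
      ext x; simp [hS]
    rw [this]
    exact (hc.mono hsub).preimage_isClosed_of_isClosed isClosed_Icc isClosed_Ici
  have hSn : S.Nonempty := ⟨x1, ⟨hax1, le_rfl⟩, hfx1⟩
  have hSb : BddBelow S := ⟨a, fun x hx => hx.1.1⟩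
  set x0 := sInf S with hx0
  have hx0S : x0 ∈ S := hSc.csInf_mem hSn hSb
  have hlt : ∀ y ∈ Ico a x0, f y < 0 := by
    intro y hy
    by_contra hy2
    push Not at hy2
    have : y ∈ S := ⟨⟨hy.1, hy.2.le.trans hx0S.1.2⟩, hy2⟩
    exact absurd (csInf_le hSb this) (not_le.2 hy.2)
  have hax0 : a < x0 := by
    rcases lt_or_eq_of_le hx0S.1.1 with h | h
    · exact h
    · exfalso
      have := hx0S.2
      rw [← h] at this
      linarith
  have hx0b : x0 < b := lt_of_le_of_lt hx0S.1.2 hx1.2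
  have hfx0 : f x0 = 0 := by
    apply le_antisymm _ hx0S.2
    have hcw : ContinuousWithinAt f (Iio x0) x0 := by
      have h1 : ContinuousWithinAt f (Icc a b) x0 := hc x0 ⟨hax0.le, hx0b.le⟩
      have h2 : ContinuousAt f x0 := h1.continuousAt (Icc_mem_nhds hax0 hx0b)
      exact h2.continuousWithinAt
    have hne : (𝓝[<] x0).NeBot := nhdsLT_neBot x0
    have hev : ∀ᶠ y in 𝓝[<] x0, f y ≤ 0 := by
      have : Ico a x0 ∈ 𝓝[<] x0 := by
        apply mem_nhdsWithin.2
        refine ⟨Ioi a, isOpen_Ioi, hax0, ?_⟩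
        intro y hy
        exact ⟨hy.1.le, hy.2⟩
      filter_upwards [this] with y hy
      exact (hlt y hy).le
    exact le_of_tendsto hcw.tendsto hev
  obtain ⟨f', hf', hneg⟩ := H x0 ⟨hax0, hx0b⟩ hlt hfx0
  rw [hasDerivAt_iff_tendsto_slope] at hf'
  have h1 : ∀ᶠ y in 𝓝[≠] x0, slope f x0 y < 0 := hf'.eventually (gt_mem_nhds hneg)
  have h2 : ∀ᶠ y in 𝓝[<] x0, slope f x0 y < 0 :=
    h1.filter_mono (nhdsWithin_mono _ (fun y hy => ne_of_lt hy))
  have h3 : Ico a x0 ∈ 𝓝[<] x0 := by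
    apply mem_nhdsWithin.2
    refine ⟨Ioi a, isOpen_Ioi, hax0, ?_⟩
    intro y hy
    exact ⟨hy.1.le, hy.2⟩
  have hne : (𝓝[<] x0).NeBot := nhdsLT_neBot x0
  obtain ⟨y, hy1, hy2⟩ := (h2.and h3).exists
  have hy3 : f y < 0 := hlt y hy2
  rw [slope_def_field, hfx0, sub_zero] at hy1
  have hy4 : y - x0 < 0 := by linarith [hy2.2]
  have : 0 < f y / (y - x0) := div_pos_of_neg_of_neg hy3 hy4
  linarith

/-- first order funnel data are combined in one statement -/
theorem funnel {a b C : ℝ} {Q Q1 p q Na Na' : ℝ → ℂ} {ε ε' : ℝ → ℝ} (hab : a ≤ b)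
    (cQ : ContinuousOn Q (Icc a b)) (cQ1 : ContinuousOn Q1 (Icc a b))
    (cNa : ContinuousOn Na (Icc a b)) (cε : ContinuousOn ε (Icc a b))
    (hQ : ∀ r ∈ Ioo a b, HasDerivAt Q (Q1 r) r)
    (hQ1 : ∀ r ∈ Ioo a b, HasDerivAt Q1 (-(p r) * Q1 r - q r * Q r) r)
    (hNa : ∀ r ∈ Ioo a b, HasDerivAt Na (Na' r) r)
    (hε : ∀ r ∈ Ioo a b, HasDerivAt ε (ε' r) r)
    (εpos : ∀ r ∈ Icc a b, 0 < ε r)
    (hD : ∀ r ∈ Ioo a b, ‖Na' r + q r + Na r ^ 2 + p r * Na r‖
      < ε' r + ((p r).re + 2 * (Na r).re) * ε r - ε r ^ 2)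
    (hC : ∀ r ∈ Ioo a b, ε r - (Na r).re ≤ C)
    (h0 : ‖Q1 a - Na a * Q a‖ < ε a * ‖Q a‖) :
    ∀ r ∈ Icc a b, Q r ≠ 0 ∧ ‖Q1 r - Na r * Q r‖ ≤ ε r * ‖Q r‖ := by
  set v : ℝ → ℂ := fun r => Q1 r - Na r * Q r with hv
  set f : ℝ → ℝ := fun r => ‖v r‖ ^ 2 - (ε r) ^ 2 * ‖Q r‖ ^ 2 with hf
  have cv : ContinuousOn v (Icc a b) := cQ1.sub (cNa.mul cQ)
  have cf : ContinuousOn f (Icc a b) := (cv.norm.pow 2).sub ((cε.pow 2).mul (cQ.norm.pow 2))
  have hQa : 0 < ‖Q a‖ := by
    by_contra h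
    have h' : ‖Q a‖ = 0 := le_antisymm (not_lt.1 h) (norm_nonneg _)
    rw [h', mul_zero] at h0
    exact absurd h0 (not_lt.2 (norm_nonneg _))
  -- lower bound on `Q`
  have low : ∀ x ∈ Icc a b, (∀ y ∈ Ico a x, f y < 0) →
      ‖Q a‖ ^ 2 * Real.exp (-(2 * C * (x - a))) ≤ ‖Q x‖ ^ 2 := by
    intro x hx hy
    set g : ℝ → ℝ := fun r => ‖Q r‖ ^ 2 * Real.exp (2 * C * (r - a)) with hg
    have hsub : Icc a x ⊆ Icc a b := Icc_subset_Icc_right hx.2
    have cg : ContinuousOn g (Icc a x) :=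
      ((cQ.mono hsub).norm.pow 2).mul (by fun_prop)
    have hgd : ∀ r ∈ interior (Icc a x), HasDerivAt g
        (2 * inner ℝ (Q r) (Q1 r) * Real.exp (2 * C * (r - a)) +
          ‖Q r‖ ^ 2 * (Real.exp (2 * C * (r - a)) * (2 * C))) r := by
      intro r hr
      rw [interior_Icc] at hr
      have hr' : r ∈ Ioo a b := ⟨hr.1, hr.2.trans_le hx.2⟩
      have h1 := (hQ r hr').norm_sq
      have h2 : HasDerivAt (fun r : ℝ => Real.exp (2 * C * (r - a)))
          (Real.exp (2 * C * (r - a)) * (2 * C)) r := by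
        have h3 : HasDerivAt (fun r : ℝ => 2 * C * (r - a)) (2 * C) r := by
          simpa using ((hasDerivAt_id r).sub_const a).const_mul (2 * C)
        exact h3.exp
      exact h1.mul h2
    have mono : MonotoneOn g (Icc a x) := by
      apply monotoneOn_of_deriv_nonneg (convex_Icc a x) cg
      · intro r hr
        exact (hgd r hr).differentiableAt.differentiableWithinAt
      · intro r hr
        rw [(hgd r hr).deriv]
        rw [interior_Icc] at hr
        have hr' : r ∈ Ioo a b := ⟨hr.1, hr.2.trans_le hx.2⟩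
        have hfr : f r < 0 := hy r ⟨hr.1.le, hr.2⟩
        have hε0 := εpos r ⟨hr.1.le, (hr.2.trans_le hx.2).le⟩
        have hv1 : ‖v r‖ ≤ ε r * ‖Q r‖ := by
          have : ‖v r‖ ^ 2 ≤ (ε r * ‖Q r‖) ^ 2 := by
            rw [mul_pow]; simp only [hf] at hfr; linarith
          exact (pow_le_pow_iff_left₀ (norm_nonneg _) (by positivity) two_ne_zero).1 this
        have hin : inner ℝ (Q r) (Q1 r) ≥ ((Na r).re - ε r) * ‖Q r‖ ^ 2 := by
          have e1 : Q1 r = v r + Na r * Q r := by simp [hv]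
          rw [e1, inner_add_right]
          have e2 : inner ℝ (Q r) (Na r * Q r) = (Na r).re * ‖Q r‖ ^ 2 := by
            rw [Complex.inner, ← Complex.normSq_eq_norm_sq, Complex.normSq_apply]
            simp only [Complex.mul_re, Complex.mul_im, Complex.conj_re, Complex.conj_im]
            ring
          have e3 : -(‖Q r‖ * ‖v r‖) ≤ inner ℝ (Q r) (v r) := by
            have := abs_real_inner_le_norm (Q r) (v r)
            exact (abs_le.1 this).1
          rw [e2]
          nlinarith [norm_nonneg (Q r)]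
        have hCr := hC r hr'
        have hE := Real.exp_pos (2 * C * (r - a))
        have hkey : 0 ≤ 2 * inner ℝ (Q r) (Q1 r) + 2 * C * ‖Q r‖ ^ 2 := by
          nlinarith [sq_nonneg ‖Q r‖]
        have : 2 * inner ℝ (Q r) (Q1 r) * Real.exp (2 * C * (r - a)) +
          ‖Q r‖ ^ 2 * (Real.exp (2 * C * (r - a)) * (2 * C)) =
          (2 * inner ℝ (Q r) (Q1 r) + 2 * C * ‖Q r‖ ^ 2) * Real.exp (2 * C * (r - a)) := by ring
        rw [this]
        exact mul_nonneg hkey hE.le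
    have hm := mono (left_mem_Icc.2 hx.1) (right_mem_Icc.2 hx.1) hx.1
    simp only [hg, sub_self, mul_zero, Real.exp_zero, mul_one] at hm
    have hE := Real.exp_pos (-(2 * C * (x - a)))
    calc ‖Q a‖ ^ 2 * Real.exp (-(2 * C * (x - a)))
        ≤ (‖Q x‖ ^ 2 * Real.exp (2 * C * (x - a))) * Real.exp (-(2 * C * (x - a))) :=
          mul_le_mul_of_nonneg_right hm hE.le
      _ = ‖Q x‖ ^ 2 := by
          rw [mul_assoc, ← Real.exp_add]; simp
  have hfa : f a < 0 := by
    simp only [hf]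
    have h1 : ‖v a‖ ^ 2 < (ε a * ‖Q a‖) ^ 2 := by
      apply pow_lt_pow_left₀ h0 (norm_nonneg _) two_ne_zero
    rw [mul_pow] at h1
    linarith
  have main : ∀ x ∈ Ico a b, f x < 0 := by
    apply barrier cf hfa
    intro x hx hy hfx
    have hxI : x ∈ Icc a b := ⟨hx.1.le, hx.2.le⟩
    have hQx : 0 < ‖Q x‖ := by
      have h1 := low x hxI hy
      have h2 : 0 < ‖Q a‖ ^ 2 * Real.exp (-(2 * C * (x - a))) := by positivity
      have h3 : 0 < ‖Q x‖ ^ 2 := lt_of_lt_of_le h2 h1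
      by_contra h
      have h' : ‖Q x‖ = 0 := le_antisymm (not_lt.1 h) (norm_nonneg _)
      rw [h'] at h3
      simp at h3
    have hε0 := εpos x hxI
    have hvx : ‖v x‖ = ε x * ‖Q x‖ := by
      have : ‖v x‖ ^ 2 = (ε x * ‖Q x‖) ^ 2 := by
        rw [mul_pow]; simp only [hf] at hfx; linarith
      exact (pow_left_inj₀ (norm_nonneg _) (by positivity) two_ne_zero).1 this
    have dv : HasDerivAt v ((-(p x) * Q1 x - q x * Q x) - (Na' x * Q x + Na x * Q1 x)) x :=
      (hQ1 x hx).sub ((hNa x hx).mul (hQ x hx))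
    have df : HasDerivAt f (2 * inner ℝ (v x) ((-(p x) * Q1 x - q x * Q x) -
        (Na' x * Q x + Na x * Q1 x)) -
        ((2 * ε x ^ 1 * ε' x) * ‖Q x‖ ^ 2 + (ε x) ^ 2 * (2 * inner ℝ (Q x) (Q1 x)))) x := by
      have h1 := dv.norm_sq
      have h2 := (hQ x hx).norm_sq
      have h3 : HasDerivAt (fun r => ε r ^ 2) (2 * ε x ^ 1 * ε' x) x := by
        have := (hε x hx).fun_pow 2
        simpa using this
      exact h1.sub (h3.mul h2)
    refine ⟨_, df, ?_⟩
    -- estimates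
    set D : ℂ := Na' x + q x + Na x ^ 2 + p x * Na x with hDdef
    have e1 : Q1 x = v x + Na x * Q x := by simp [hv]
    have e2 : (-(p x) * Q1 x - q x * Q x) - (Na' x * Q x + Na x * Q1 x)
        = -(p x + Na x) * v x - D * Q x := by
      rw [e1, hDdef]; ring
    have i1 : inner ℝ (v x) (-(p x + Na x) * v x - D * Q x)
        ≤ -((p x).re + (Na x).re) * ‖v x‖ ^ 2 + ‖v x‖ * (‖D‖ * ‖Q x‖) := by
      rw [inner_sub_right]
      have e3 : inner ℝ (v x) (-(p x + Na x) * v x) = -((p x).re + (Na x).re) * ‖v x‖ ^ 2 := by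
        rw [Complex.inner, ← Complex.normSq_eq_norm_sq, Complex.normSq_apply]
        simp only [Complex.mul_re, Complex.mul_im, Complex.conj_re, Complex.conj_im,
          Complex.neg_re, Complex.neg_im, Complex.add_re, Complex.add_im]
        ring
      have e4 : -(‖v x‖ * ‖D * Q x‖) ≤ inner ℝ (v x) (D * Q x) := by
        have := abs_real_inner_le_norm (v x) (D * Q x)
        exact (abs_le.1 this).1
      rw [norm_mul] at e4
      rw [e3]
      linarith
    have i2 : inner ℝ (Q x) (Q1 x) ≥ ((Na x).re) * ‖Q x‖ ^ 2 - ‖Q x‖ * ‖v x‖ := by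
      rw [e1, inner_add_right]
      have e2 : inner ℝ (Q x) (Na x * Q x) = (Na x).re * ‖Q x‖ ^ 2 := by
        rw [Complex.inner, ← Complex.normSq_eq_norm_sq, Complex.normSq_apply]
        simp only [Complex.mul_re, Complex.mul_im, Complex.conj_re, Complex.conj_im]
        ring
      have e3 : -(‖Q x‖ * ‖v x‖) ≤ inner ℝ (Q x) (v x) := by
        have := abs_real_inner_le_norm (Q x) (v x)
        exact (abs_le.1 this).1
      rw [e2]
      linarith
    rw [e2]
    have hDx := hD x hx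
    rw [← hDdef] at hDx
    rw [hvx] at i1 i2
    have hQ2 : 0 < ‖Q x‖ ^ 2 := by positivity
    have key : 0 < 2 * ε x * ‖Q x‖ ^ 2 *
        (ε' x + ((p x).re + 2 * (Na x).re) * ε x - ε x ^ 2 - ‖D‖) := by
      apply mul_pos (by positivity); linarith
    have hε2 : 0 < ε x ^ 2 := by positivity
    nlinarith [mul_le_mul_of_nonneg_left i2 hε2.le]
  intro r hr
  have hall : ∀ y ∈ Ico a r, f y < 0 := fun y hy => main y ⟨hy.1, hy.2.trans_le hr.2⟩
  have hlow := low r hr hall
  have hQr : 0 < ‖Q r‖ ^ 2 :=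
    lt_of_lt_of_le (by positivity) hlow
  refine ⟨?_, ?_⟩
  · intro h
    rw [h] at hQr
    simp at hQr
  · have hfr : f r ≤ 0 := by
      rcases lt_or_eq_of_le hr.2 with h | h
      · exact (main r ⟨hr.1, h⟩).le
      · rcases lt_or_eq_of_le hab with h2 | h2
        · rw [h]
          have hcw : ContinuousWithinAt f (Ico a b) b :=
            (cf b (right_mem_Icc.2 hab)).mono Ico_subset_Icc_self
          have hne : (𝓝[Ico a b] b).NeBot := by
            rw [← mem_closure_iff_nhdsWithin_neBot, closure_Ico h2.ne]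
            exact right_mem_Icc.2 hab
          apply le_of_tendsto hcw.tendsto
          filter_upwards [self_mem_nhdsWithin] with y hy
          exact (main y hy).le
        · have : r = a := by rw [h, ← h2]
          rw [this]; exact hfa.le
    have hε0 := εpos r hr
    have : ‖v r‖ ^ 2 ≤ (ε r * ‖Q r‖) ^ 2 := by
      rw [mul_pow]; simp only [hf] at hfr; linarith
    exact (pow_le_pow_iff_left₀ (norm_nonneg _) (by positivity) two_ne_zero).1 this

end Vale.Agent.P139.H560
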