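import Mathlib

/-!
Fixed-point interval arithmetic on `ℤ` (scale `2^60`), evaluated by the kernel.
-/

namespace Vale.Agent.P139.H560

/-- The scale of the fixed-point numbers. -/
def sc : ℕ := 2 ^ 60

theorem sc_pos : (0:ℝ) < (sc:ℝ) := by
  have : 0 < sc := by unfold sc; positivity
  exact_mod_cast this

theorem sc_posZ : (0:ℤ) < (sc:ℤ) := by
  have : 0 < sc := by unfold sc; positivity
  exact_mod_cast this

/-- An interval `[lo/sc, hi/sc]`. -/
structure Iv where
  lo : ℤ
  hi : ℤ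

namespace Iv

/-- membership -/
def Mem (x : ℝ) (I : Iv) : Prop := (I.lo : ℝ) ≤ x * sc ∧ x * sc ≤ (I.hi : ℝ)

def add (I J : Iv) : Iv := ⟨I.lo + J.lo, I.hi + J.hi⟩
def neg (I : Iv) : Iv := ⟨-I.hi, -I.lo⟩
def sub (I J : Iv) : Iv := ⟨I.lo - J.hi, I.hi - J.lo⟩

/-- division by `sc` rounding down -/
def fdiv (a : ℤ) : ℤ := a / (sc:ℤ)
/-- division by `sc` rounding up -/
def cdiv (a : ℤ) : ℤ := -((-a) / (sc:ℤ))

def mul (I J : Iv) : Iv :=
  ⟨fdiv (min (min (I.lo * J.lo) (I.lo * J.hi)) (min (I.hi * J.lo) (I.hi * J.hi))),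
   cdiv (max (max (I.lo * J.lo) (I.lo * J.hi)) (max (I.hi * J.lo) (I.hi * J.hi)))⟩

/-- the rational `p / q` -/
def rat (p : ℤ) (q : ℕ) : Iv := ⟨(p * sc) / (q:ℤ), -((-(p * sc)) / (q:ℤ))⟩

theorem mem_add {x y : ℝ} {I J : Iv} (hx : Mem x I) (hy : Mem y J) : Mem (x + y) (add I J) := by
  obtain ⟨h1, h2⟩ := hx
  obtain ⟨h3, h4⟩ := hy
  constructor
  · simp only [add]; push_cast; nlinarith
  · simp only [add]; push_cast; nlinarith

theorem mem_neg {x : ℝ} {I : Iv} (hx : Mem x I) : Mem (-x) (neg I) := by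
  obtain ⟨h1, h2⟩ := hx
  constructor
  · simp only [neg]; push_cast; nlinarith
  · simp only [neg]; push_cast; nlinarith

theorem mem_sub {x y : ℝ} {I J : Iv} (hx : Mem x I) (hy : Mem y J) : Mem (x - y) (sub I J) := by
  obtain ⟨h1, h2⟩ := hx
  obtain ⟨h3, h4⟩ := hy
  constructor
  · simp only [sub]; push_cast; nlinarith
  · simp only [sub]; push_cast; nlinarith

theorem fdiv_le (a : ℤ) : ((fdiv a : ℤ) : ℝ) ≤ (a:ℝ) / sc := by
  rw [le_div_iff₀ sc_pos]
  have := Int.ediv_mul_le a (ne_of_gt sc_posZ)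
  unfold fdiv
  exact_mod_cast this

theorem le_cdiv (a : ℤ) : (a:ℝ) / sc ≤ ((cdiv a : ℤ) : ℝ) := by
  have h := fdiv_le (-a)
  unfold cdiv
  unfold fdiv at h
  push_cast at h ⊢
  have : -(a:ℝ) / sc = -((a:ℝ)/sc) := by ring
  rw [this] at h
  linarith

theorem mul_bounds {a b c d x y : ℝ} (h1 : a ≤ x) (h2 : x ≤ b) (h3 : c ≤ y) (h4 : y ≤ d) :
    min (min (a * c) (a * d)) (min (b * c) (b * d)) ≤ x * y ∧
    x * y ≤ max (max (a * c) (a * d)) (max (b * c) (b * d)) := by
  constructor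
  · -- lower bound
    rcases le_total 0 y with hy | hy
    · have hA : a * y ≤ x * y := mul_le_mul_of_nonneg_right h1 hy
      rcases le_total 0 a with ha | ha
      · have : a * c ≤ a * y := mul_le_mul_of_nonneg_left h3 ha
        exact le_trans (le_trans (min_le_left _ _) (min_le_left _ _)) (le_trans this hA)
      · have : a * d ≤ a * y := mul_le_mul_of_nonpos_left h4 ha
        exact le_trans (le_trans (min_le_left _ _) (min_le_right _ _)) (le_trans this hA)
    · have hA : b * y ≤ x * y := mul_le_mul_of_nonpos_right h2 hy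
      rcases le_total 0 b with hb | hb
      · have : b * c ≤ b * y := mul_le_mul_of_nonneg_left h3 hb
        exact le_trans (le_trans (min_le_right _ _) (min_le_left _ _)) (le_trans this hA)
      · have : b * d ≤ b * y := mul_le_mul_of_nonpos_left h4 hb
        exact le_trans (le_trans (min_le_right _ _) (min_le_right _ _)) (le_trans this hA)
  · rcases le_total 0 y with hy | hy
    · have hA : x * y ≤ b * y := mul_le_mul_of_nonneg_right h2 hy
      rcases le_total 0 b with hb | hb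
      · have : b * y ≤ b * d := mul_le_mul_of_nonneg_left h4 hb
        exact le_trans (le_trans hA this) (le_trans (le_max_right _ _) (le_max_right _ _))
      · have : b * y ≤ b * c := mul_le_mul_of_nonpos_left h3 hb
        exact le_trans (le_trans hA this) (le_trans (le_max_left _ _) (le_max_right _ _))
    · have hA : x * y ≤ a * y := mul_le_mul_of_nonpos_right h1 hy
      rcases le_total 0 a with ha | ha
      · have : a * y ≤ a * d := mul_le_mul_of_nonneg_left h4 ha
        exact le_trans (le_trans hA this) (le_trans (le_max_right _ _) (le_max_left _ _))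
      · have : a * y ≤ a * c := mul_le_mul_of_nonpos_left h3 ha
        exact le_trans (le_trans hA this) (le_trans (le_max_left _ _) (le_max_left _ _))

theorem mem_mul {x y : ℝ} {I J : Iv} (hx : Mem x I) (hy : Mem y J) : Mem (x * y) (mul I J) := by
  obtain ⟨h1, h2⟩ := hx
  obtain ⟨h3, h4⟩ := hy
  have hb := mul_bounds h1 h2 h3 h4
  have hs := sc_pos
  have e : x * y * sc = (x * sc) * (y * sc) / sc := by field_simp
  constructor
  · simp only [mul]
    refine le_trans (fdiv_le _) ?_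
    rw [e]
    apply div_le_div_of_nonneg_right _ hs.le
    push_cast
    exact hb.1
  · simp only [mul]
    refine le_trans ?_ (le_cdiv _)
    rw [e]
    apply div_le_div_of_nonneg_right _ hs.le
    push_cast
    exact hb.2

theorem mem_rat (p : ℤ) (q : ℕ) : Mem ((p:ℝ) / (q:ℝ)) (rat p q) := by
  rcases Nat.eq_zero_or_pos q with hq | hq
  · subst hq
    constructor <;> simp [rat]
  · have hq' : (0:ℝ) < (q:ℝ) := by exact_mod_cast hq
    have hqZ : (0:ℤ) < (q:ℤ) := by exact_mod_cast hq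
    have e : (p:ℝ) / (q:ℝ) * sc = (p * sc : ℝ) / q := by ring
    constructor
    · rw [e, le_div_iff₀ hq']
      have := Int.ediv_mul_le (p * sc) (ne_of_gt hqZ)
      simp only [rat]
      exact_mod_cast this
    · rw [e, div_le_iff₀ hq']
      have := Int.ediv_mul_le (-(p * sc)) (ne_of_gt hqZ)
      simp only [rat]
      have h2 : (p * sc : ℤ) ≤ -((-(p * sc)) / (q:ℤ)) * q := by linarith
      exact_mod_cast h2

theorem Mem.mono {x : ℝ} {I J : Iv} (h : Mem x I) (h1 : J.lo ≤ I.lo) (h2 : I.hi ≤ J.hi) :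
    Mem x J := by
  refine ⟨le_trans ?_ h.1, le_trans h.2 ?_⟩
  · exact_mod_cast h1
  · exact_mod_cast h2

theorem pos_of_mem {x : ℝ} {I : Iv} (h : Mem x I) (h1 : 0 < I.lo) : 0 < x := by
  have hs := sc_pos
  have : (0:ℝ) < (I.lo:ℝ) := by exact_mod_cast h1
  have h2 : 0 < x * sc := lt_of_lt_of_le this h.1
  exact (pos_iff_pos_of_mul_pos h2).2 hs

theorem neg_of_mem {x : ℝ} {I : Iv} (h : Mem x I) (h1 : I.hi < 0) : x < 0 := by
  have hs := sc_pos
  have : (I.hi:ℝ) < 0 := by exact_mod_cast h1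
  have h2 : x * sc < 0 := lt_of_le_of_lt h.2 this
  by_contra hx
  push Not at hx
  have := mul_nonneg hx hs.le
  linarith

end Iv

/-- Polynomial expressions in finitely many real variables with rational constants. -/
inductive Ex where
  | v (i : ℕ) : Ex
  | q (p : ℤ) (q : ℕ) : Ex
  | add (a b : Ex) : Ex
  | sub (a b : Ex) : Ex
  | neg (a : Ex) : Ex
  | mul (a b : Ex) : Ex

namespace Ex

noncomputable def eval (ρ : ℕ → ℝ) : Ex → ℝ
  | v i => ρ i
  | q p r => (p:ℝ) / (r:ℝ)
  | add a b => eval ρ a + eval ρ b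
  | sub a b => eval ρ a - eval ρ b
  | neg a => - eval ρ a
  | mul a b => eval ρ a * eval ρ b

def iev (ι : ℕ → Iv) : Ex → Iv
  | v i => ι i
  | q p r => Iv.rat p r
  | add a b => Iv.add (iev ι a) (iev ι b)
  | sub a b => Iv.sub (iev ι a) (iev ι b)
  | neg a => Iv.neg (iev ι a)
  | mul a b => Iv.mul (iev ι a) (iev ι b)

theorem mem_iev {ρ : ℕ → ℝ} {ι : ℕ → Iv} (h : ∀ i, Iv.Mem (ρ i) (ι i)) :
    ∀ e : Ex, Iv.Mem (eval ρ e) (iev ι e)
  | v i => h i
  | q p r => Iv.mem_rat p r
  | add a b => Iv.mem_add (mem_iev h a) (mem_iev h b)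
  | sub a b => Iv.mem_sub (mem_iev h a) (mem_iev h b)
  | neg a => Iv.mem_neg (mem_iev h a)
  | mul a b => Iv.mem_mul (mem_iev h a) (mem_iev h b)

end Ex

end Vale.Agent.P139.H560
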