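import Vale.Agent.P139.H560.FunNum
import Vale.Agent.P139.H560.Funnel

/-!
# The hard-wall profile is strictly decreasing in modulus outside the core

For all `w ∈ [0.67403, 0.67422]`, `R ∈ [3.26423, 3.26444]`, the solution of
`Z'' + (12/r + i r/2) Z' + w Z = 0`, `Z(R) = 1`, `Z'(R) = 0`, does not vanish for `r ≥ R` and
`Re (Z'/Z) < 0` for `r > R`.
-/

open Set Filter Topology ComplexConjugate Complex

namespace Vale.Agent.P139.H560

/-- the coefficient `12/r + i r/2` -/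
noncomputable def pp (r : ℝ) : ℂ := ((12 / r : ℝ) : ℂ) + ((r / 2 : ℝ) : ℂ) * I

theorem pp_re (r : ℝ) : (pp r).re = 12 / r := by simp [pp]

/-! ## first phase -/

/-- centre of the first funnel -/
noncomputable def N1 (w R r : ℝ) : ℂ :=
  ((-w * (r - R) + 5/4 * (r - R) ^ 2 : ℝ) : ℂ) + ((11/20 * (r - R) ^ 2 : ℝ) : ℂ) * I

noncomputable def N1' (w R r : ℝ) : ℂ :=
  ((-w + 5/2 * (r - R) : ℝ) : ℂ) + ((11/10 * (r - R) : ℝ) : ℂ) * I

theorem hasDerivAt_N1 (w R r : ℝ) : HasDerivAt (N1 w R) (N1' w R r) r := by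
  have hx : HasDerivAt (fun r : ℝ => r - R) 1 r := (hasDerivAt_id r).sub_const R
  have h2 : HasDerivAt (fun r : ℝ => (r - R) ^ 2) (2 * (r - R)) r := by
    have := hx.fun_pow 2
    simpa using this
  have ha : HasDerivAt (fun r : ℝ => -w * (r - R) + 5/4 * (r - R) ^ 2)
      (-w + 5/2 * (r - R)) r := by
    have := (hx.const_mul (-w)).add (h2.const_mul (5/4))
    refine this.congr_deriv ?_
    ring
  have hb : HasDerivAt (fun r : ℝ => 11/20 * (r - R) ^ 2) (11/10 * (r - R)) r := by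
    refine (h2.const_mul (11/20)).congr_deriv ?_
    ring
  exact ha.ofReal_comp.add (hb.ofReal_comp.mul_const I)

theorem N1_re (w R r : ℝ) : (N1 w R r).re = -w * (r - R) + 5/4 * (r - R) ^ 2 := by
  simp only [N1, Complex.add_re, Complex.mul_re, Complex.ofReal_re, Complex.ofReal_im,
    Complex.I_re, Complex.I_im]
  ring

theorem N1_im (w R r : ℝ) : (N1 w R r).im = 11/20 * (r - R) ^ 2 := by
  simp only [N1, Complex.add_im, Complex.mul_im, Complex.ofReal_re, Complex.ofReal_im,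
    Complex.I_re, Complex.I_im]
  ring

theorem D1_re (w R r : ℝ) : (N1' w R r + (w:ℂ) + N1 w R r ^ 2 + pp r * N1 w R r).re =
    (r - R) * ((2.5 - w * (12 / r)) + (r - R) * ((w - 1.25 * (r - R)) ^ 2
      - 0.3025 * (r - R) ^ 2 + 1.25 * (12 / r) - 0.275 * r)) := by
  simp only [N1, N1', pp, pow_two (_ : ℂ), Complex.add_re, Complex.mul_re,
    Complex.add_im, Complex.mul_im, Complex.ofReal_re, Complex.ofReal_im, Complex.I_re,
    Complex.I_im]
  ring

theorem D1_im (w R r : ℝ) : (N1' w R r + (w:ℂ) + N1 w R r ^ 2 + pp r * N1 w R r).im =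
    (r - R) * ((1.1 - w * r / 2) + (r - R) * (0.55 * (12 / r) + 0.625 * r)
      + 1.1 * (r - R) ^ 2 * (-w + 1.25 * (r - R))) := by
  simp only [N1, N1', pp, pow_two (_ : ℂ), Complex.add_re, Complex.mul_re,
    Complex.add_im, Complex.mul_im, Complex.ofReal_re, Complex.ofReal_im, Complex.I_re,
    Complex.I_im]
  ring

theorem bRe {w u x r : ℝ} (hw1 : 0.67403 ≤ w) (hw2 : w ≤ 0.67422) (hx0 : 0 < x)
    (hx1 : x ≤ 1/16) (hu1 : u ≤ 3.6763) (hu2 : 3.6759 - 1.1265 * x ≤ u) (hr1 : 3.26423 ≤ r)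
    (hr2 : r ≤ 3.32694) :
    |x * ((2.5 - w * u) + x * ((w - 1.25 * x) ^ 2 - 0.3025 * x ^ 2 + 1.25 * u - 0.275 * r))|
      ≤ x * (0.0228 + 5 * x) := by
  have hu0 : 0 < u := by linarith
  have e1 : 2.5 - w * u ≤ 0.0228 + 0.76 * x := by
    have := mul_nonneg (sub_nonneg.2 hw1) hu0.le
    linarith
  have e2 : 0 ≤ 2.5 - w * u := by
    have := mul_nonneg (sub_nonneg.2 hw2) hu0.le
    linarith
  have e3 : (w - 1.25 * x) ^ 2 ≤ 0.4546 := by
    have h1 : 0 ≤ w - 1.25 * x := by linarith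
    have h2 : w - 1.25 * x ≤ 0.67422 := by linarith
    have := mul_le_mul h2 h2 h1 (by norm_num)
    have h3 : (w - 1.25 * x) ^ 2 = (w - 1.25 * x) * (w - 1.25 * x) := by ring
    rw [h3]
    refine this.trans (by norm_num)
  have e4 : (0:ℝ) ≤ (w - 1.25 * x) ^ 2 := sq_nonneg _
  have e5 : 0 ≤ x ^ 2 := sq_nonneg _
  have e6 : x ^ 2 ≤ 1/256 := by
    have := mul_le_mul hx1 hx1 hx0.le (by norm_num)
    have h3 : x ^ 2 = x * x := by ring
    rw [h3]; refine this.trans (by norm_num)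
  have f1 : (w - 1.25 * x) ^ 2 - 0.3025 * x ^ 2 + 1.25 * u - 0.275 * r ≤ 4.2 := by linarith
  have f2 : 0 ≤ (w - 1.25 * x) ^ 2 - 0.3025 * x ^ 2 + 1.25 * u - 0.275 * r := by linarith
  rw [abs_mul, abs_of_pos hx0]
  apply mul_le_mul_of_nonneg_left _ hx0.le
  rw [abs_of_nonneg (add_nonneg e2 (mul_nonneg hx0.le f2))]
  have := mul_le_mul_of_nonneg_left f1 hx0.le
  linarith

theorem bIm {w u x r : ℝ} (hw1 : 0.67403 ≤ w) (hw2 : w ≤ 0.67422) (hx0 : 0 < x)
    (hx1 : x ≤ 1/16) (hu1 : u ≤ 3.6763) (hu2 : 3.6759 - 1.1265 * x ≤ u) (hr1 : 3.26423 ≤ r)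
    (hr2 : r ≤ 3.26444 + x) :
    |x * ((1.1 - w * r / 2) + x * (0.55 * u + 0.625 * r) + 1.1 * x ^ 2 * (-w + 1.25 * x))|
      ≤ x * (0.0012 + 4.2 * x) := by
  have hu0 : 0 < u := by linarith
  rw [abs_mul, abs_of_pos hx0]
  apply mul_le_mul_of_nonneg_left _ hx0.le
  have hr0 : 0 < r := by linarith
  have g1 : 2.2 ≤ w * r := by
    have := mul_le_mul hw1 hr1 (by norm_num) (by linarith)
    linarith
  have g2 : w * r ≤ 2.2012 + 0.675 * x := by
    have := mul_le_mul hw2 hr2 hr0.le (by norm_num)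
    linarith
  have g3 : 0.55 * u + 0.625 * r ≤ 4.2 := by linarith
  have g4 : 4 ≤ 0.55 * u + 0.625 * r := by linarith
  have g5 : x * (0.55 * u + 0.625 * r) ≤ x * 4.2 := mul_le_mul_of_nonneg_left g3 hx0.le
  have g6 : x * 4 ≤ x * (0.55 * u + 0.625 * r) := mul_le_mul_of_nonneg_left g4 hx0.le
  have g7 : -w + 1.25 * x ≤ 0 := by linarith
  have g8 : -0.675 ≤ -w + 1.25 * x := by linarith
  have g9 : 0 ≤ 1.1 * x ^ 2 := by positivity
  have g10 : 1.1 * x ^ 2 * (-w + 1.25 * x) ≤ 0 := mul_nonpos_of_nonneg_of_nonpos g9 g7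
  have g11 : 1.1 * x ^ 2 * (-0.675) ≤ 1.1 * x ^ 2 * (-w + 1.25 * x) :=
    mul_le_mul_of_nonneg_left g8 g9
  have g12 : x ^ 2 ≤ x * (1/16) := by
    have h3 : x ^ 2 = x * x := by ring
    rw [h3]; exact mul_le_mul_of_nonneg_left hx1 hx0.le
  rw [abs_le]
  constructor <;> linarith

theorem bCoef {w u x δ : ℝ} (hw2 : w ≤ 0.67422) (hx0 : 0 < x)
    (hx1 : x ≤ 1/16) (hu2 : 3.6759 - 1.1265 * x ≤ u) (hδ0 : 0 < δ) (hδ1 : δ ≤ 1/100) :
    x / 40 + 10.5 * x ^ 2 < (x / 40 + 21/2 * x ^ 2) +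
      (u + 2 * (-w * x + 5/4 * x ^ 2)) * (δ + x ^ 2 / 80 + 7/2 * x ^ 3)
      - (δ + x ^ 2 / 80 + 7/2 * x ^ 3) ^ 2 := by
  have e5 : 0 ≤ x ^ 2 := sq_nonneg _
  have e6 : x ^ 2 ≤ 1/256 := by
    have := mul_le_mul hx1 hx1 hx0.le (by norm_num)
    have h3 : x ^ 2 = x * x := by ring
    rw [h3]; refine this.trans (by norm_num)
  have e7 : x ^ 3 ≤ 1/4096 := by
    have := mul_le_mul e6 hx1 hx0.le (by norm_num)
    have h3 : x ^ 3 = x ^ 2 * x := by ring
    rw [h3]; refine this.trans (by norm_num)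
  have e8 : 0 < x ^ 3 := by positivity
  set e := δ + x ^ 2 / 80 + 7/2 * x ^ 3 with he
  have he0 : 0 < e := by rw [he]; positivity
  have he1 : e ≤ 1/10 := by rw [he]; linarith
  have hwx : w * x ≤ 0.67422 * (1/16) := mul_le_mul hw2 hx1 hx0.le (by norm_num)
  have hc : 1 ≤ (u + 2 * (-w * x + 5/4 * x ^ 2)) - e := by
    have : -w * x = -(w * x) := by ring
    rw [this]; linarith
  have := mul_le_mul_of_nonneg_right hc he0.le
  have h2 : e ^ 2 = e * e := by ring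
  rw [h2]
  linarith [sub_mul (u + 2 * (-w * x + 5/4 * x ^ 2)) e e]

theorem phase1 {w R b δ : ℝ} (hw1 : 0.67403 ≤ w) (hw2 : w ≤ 0.67422) (hR1 : 3.26423 ≤ R)
    (hR2 : R ≤ 3.26444) (hb1 : R ≤ b) (hb2 : b ≤ R + 1/16) (hδ0 : 0 < δ) (hδ1 : δ ≤ 1/100)
    {Z Z1 : ℝ → ℂ} (cZ : ContinuousOn Z (Icc R b)) (cZ1 : ContinuousOn Z1 (Icc R b))
    (hZ : ∀ r ∈ Ioo R b, HasDerivAt Z (Z1 r) r)
    (hZ1 : ∀ r ∈ Ioo R b, HasDerivAt Z1 (-(pp r) * Z1 r - (w:ℂ) * Z r) r)
    (h1 : Z R = 1) (h2 : Z1 R = 0) :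
    ∀ r ∈ Icc R b, Z r ≠ 0 ∧
      ‖Z1 r - N1 w R r * Z r‖ ≤ (δ + (r - R) ^ 2 / 80 + 7/2 * (r - R) ^ 3) * ‖Z r‖ := by
  have hx : ∀ r : ℝ, HasDerivAt (fun r : ℝ => r - R) 1 r := fun r => (hasDerivAt_id r).sub_const R
  refine funnel (C := 1) (p := pp) (q := fun _ => (w:ℂ)) (Na := N1 w R) (Na' := N1' w R)
    (ε := fun r => δ + (r - R) ^ 2 / 80 + 7/2 * (r - R) ^ 3)
    (ε' := fun r => (r - R) / 40 + 21/2 * (r - R) ^ 2) hb1 cZ cZ1 ?_ ?_ hZ hZ1 ?_ ?_ ?_ ?_ ?_ ?_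
  · exact fun r _ => (hasDerivAt_N1 w R r).continuousAt.continuousWithinAt
  · fun_prop
  · exact fun r _ => hasDerivAt_N1 w R r
  · intro r _
    have h2 : HasDerivAt (fun r : ℝ => (r - R) ^ 2) (2 * (r - R)) r := by
      have := (hx r).fun_pow 2
      simpa using this
    have h3 : HasDerivAt (fun r : ℝ => (r - R) ^ 3) (3 * (r - R) ^ 2) r := by
      have := (hx r).fun_pow 3
      simpa using this
    have := ((h2.div_const 80).const_add δ).add (h3.const_mul (7/2))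
    refine this.congr_deriv ?_
    ring
  · intro r hr
    have : 0 ≤ r - R := by linarith [hr.1]
    positivity
  · intro r hr
    have hx0 : 0 < r - R := by linarith [hr.1]
    have hx1 : r - R ≤ 1/16 := by linarith [hr.2]
    have hr0 : 0 < r := by linarith
    have hR0 : 0 < R := by linarith
    have hu1 : 12 / r ≤ 12 / R :=
      div_le_div_of_nonneg_left (by norm_num) hR0 (by linarith)
    have hu2 : 12 / R ≤ 3.6763 := by
      rw [div_le_iff₀ hR0]; linarith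
    have hu4 : 3.6759 ≤ 12 / R := by
      rw [le_div_iff₀ hR0]; linarith
    have hu5 : 12 / R - 12 / r ≤ 1.1265 * (r - R) := by
      have e : 12 / R - 12 / r = 12 * (r - R) / (R * r) := by
        field_simp
      rw [e, div_le_iff₀ (by positivity)]
      have h3 : 3.26423 * 3.26423 ≤ R * r :=
        mul_le_mul hR1 (by linarith) (by norm_num) hR0.le
      have h4 : 12 ≤ 1.1265 * (R * r) := by linarith
      have := mul_le_mul_of_nonneg_right h4 hx0.le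
      linarith
    have b1 := bRe (r := r) hw1 hw2 hx0 hx1 (hu1.trans hu2) (by linarith) (by linarith) (by linarith)
    have b2 := bIm (r := r) hw1 hw2 hx0 hx1 (hu1.trans hu2) (by linarith) (by linarith) (by linarith)
    have b3 := bCoef (δ := δ) hw2 hx0 hx1 (u := 12 / r) (by linarith) hδ0 hδ1
    rw [← D1_re w R r] at b1
    rw [← D1_im w R r] at b2
    have hnorm := Complex.norm_le_abs_re_add_abs_im
      (N1' w R r + (w:ℂ) + N1 w R r ^ 2 + pp r * N1 w R r)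
    rw [pp_re, N1_re]
    have h5 : 0 ≤ (r - R) * (r - R) := mul_self_nonneg _
    linarith
  · intro r hr
    have hx0 : 0 < r - R := by linarith [hr.1]
    have hx1 : r - R ≤ 1/16 := by linarith [hr.2]
    rw [N1_re]
    have e6 : (r - R) ^ 2 ≤ 1/256 := by
      have := mul_le_mul hx1 hx1 hx0.le (by norm_num)
      have h3 : (r - R) ^ 2 = (r - R) * (r - R) := by ring
      rw [h3]; refine this.trans (by norm_num)
    have e7 : (r - R) ^ 3 ≤ 1/4096 := by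
      have := mul_le_mul e6 hx1 hx0.le (by norm_num)
      have h3 : (r - R) ^ 3 = (r - R) ^ 2 * (r - R) := by ring
      rw [h3]; refine this.trans (by norm_num)
    have hwx : w * (r - R) ≤ 0.67422 * (1/16) := mul_le_mul hw2 hx1 hx0.le (by norm_num)
    have e8 : 0 ≤ (r - R) ^ 2 := sq_nonneg _
    linarith
  · simp [N1, h1, h2, hδ0]

end Vale.Agent.P139.H560
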