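import Vale.Agent.P139.H560.Mono

/-!
Second phase of the funnel, `r ≥ R + 1/16`, and the final statement.
-/

open Set Filter Topology ComplexConjugate Complex

namespace Vale.Agent.P139.H560

noncomputable def nr (w y : ℝ) : ℝ := y * Tr w y
noncomputable def ni (w y : ℝ) : ℝ := 2 * w + y * Ti w y
noncomputable def nr' (w y : ℝ) : ℝ := n3r w + 2 * y * sr y + y ^ 2 * dsr y
noncomputable def ni' (w y : ℝ) : ℝ := n3i w + 2 * y * si y + y ^ 2 * dsi y

theorem hasDerivAt_sr (y : ℝ) : HasDerivAt sr (dsr y) y := by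
  have h1 : HasDerivAt (fun y : ℝ => 244 + 3056 * y + (-52880) * y ^ 2 + 304416 * y ^ 3)
      (3056 + (-52880) * (2 * y) + 304416 * (3 * y ^ 2)) y := by
    have a1 : HasDerivAt (fun y : ℝ => 3056 * y) 3056 y := by
      simpa using (hasDerivAt_id y).const_mul (3056:ℝ)
    have a2 : HasDerivAt (fun y : ℝ => (-52880) * y ^ 2) ((-52880) * (2 * y)) y := by
      simpa using (hasDerivAt_pow 2 y).const_mul (-52880:ℝ)
    have a3 : HasDerivAt (fun y : ℝ => 304416 * y ^ 3) (304416 * (3 * y ^ 2)) y := by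
      simpa using (hasDerivAt_pow 3 y).const_mul (304416:ℝ)
    exact ((a1.const_add 244).add a2).add a3
  have e : sr = (fun y : ℝ => 244 + 3056 * y + (-52880) * y ^ 2 + 304416 * y ^ 3) := by
    funext y; unfold sr; ring
  rw [e]
  refine h1.congr_deriv ?_
  unfold dsr; ring

theorem hasDerivAt_si (y : ℝ) : HasDerivAt si (dsi y) y := by
  have h1 : HasDerivAt (fun y : ℝ => -516 + 8194 * y + (-67912) * y ^ 2 + 279615 * y ^ 3)
      (8194 + (-67912) * (2 * y) + 279615 * (3 * y ^ 2)) y := by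
    have a1 : HasDerivAt (fun y : ℝ => 8194 * y) 8194 y := by
      simpa using (hasDerivAt_id y).const_mul (8194:ℝ)
    have a2 : HasDerivAt (fun y : ℝ => (-67912) * y ^ 2) ((-67912) * (2 * y)) y := by
      simpa using (hasDerivAt_pow 2 y).const_mul (-67912:ℝ)
    have a3 : HasDerivAt (fun y : ℝ => 279615 * y ^ 3) (279615 * (3 * y ^ 2)) y := by
      simpa using (hasDerivAt_pow 3 y).const_mul (279615:ℝ)
    exact ((a1.const_add (-516)).add a2).add a3
  have e : si = (fun y : ℝ => -516 + 8194 * y + (-67912) * y ^ 2 + 279615 * y ^ 3) := by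
    funext y; unfold si; ring
  rw [e]
  refine h1.congr_deriv ?_
  unfold dsi; ring

theorem hasDerivAt_nr (w y : ℝ) : HasDerivAt (nr w) (nr' w y) y := by
  have h := ((hasDerivAt_id' y).fun_mul
    ((((hasDerivAt_id' y).fun_mul (hasDerivAt_sr y))).const_add (n3r w)))
  refine h.congr_deriv ?_
  simp only [nr']
  ring

theorem hasDerivAt_ni (w y : ℝ) : HasDerivAt (ni w) (ni' w y) y := by
  have h := ((hasDerivAt_id' y).fun_mul
    ((((hasDerivAt_id' y).fun_mul (hasDerivAt_si y))).const_add (n3i w))).const_add (2 * w)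
  refine h.congr_deriv ?_
  simp only [ni']
  ring

/-- `1 / r²` -/
noncomputable def yy (r : ℝ) : ℝ := (r ^ 2)⁻¹

theorem hasDerivAt_yy {r : ℝ} (hr : 0 < r) : HasDerivAt yy (-2 * yy r / r) r := by
  have h := (hasDerivAt_pow 2 r).fun_inv (by positivity)
  refine h.congr_deriv ?_
  simp only [yy]
  field_simp
  push_cast
  ring

/-- real part of the centre -/
noncomputable def aR (w r : ℝ) : ℝ := nr w (yy r) / r
/-- imaginary part of the centre -/
noncomputable def aI (w r : ℝ) : ℝ := ni w (yy r) / r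

theorem hasDerivAt_div_comp {g : ℝ → ℝ} {g' r : ℝ} (hr : 0 < r) (hg : HasDerivAt g g' (yy r)) :
    HasDerivAt (fun r => g (yy r) / r) (-(yy r) * (2 * yy r * g' + g (yy r))) r := by
  have h1 : HasDerivAt (fun r => g (yy r)) (g' * (-2 * yy r / r)) r := hg.comp r (hasDerivAt_yy hr)
  have h := h1.fun_div (hasDerivAt_id r) hr.ne'
  refine h.congr_deriv ?_
  simp only [id]
  have : yy r = 1 / r ^ 2 := by simp [yy]
  generalize g (yy r) = X
  rw [this]
  field_simp
  ring

noncomputable def N2 (w r : ℝ) : ℂ := ((aR w r : ℝ) : ℂ) + ((aI w r : ℝ) : ℂ) * I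
noncomputable def N2' (w r : ℝ) : ℂ :=
  ((-(yy r) * (2 * yy r * nr' w (yy r) + nr w (yy r)) : ℝ) : ℂ) +
    ((-(yy r) * (2 * yy r * ni' w (yy r) + ni w (yy r)) : ℝ) : ℂ) * I

theorem hasDerivAt_N2 (w : ℝ) {r : ℝ} (hr : 0 < r) : HasDerivAt (N2 w) (N2' w r) r := by
  have h1 := hasDerivAt_div_comp hr (hasDerivAt_nr w (yy r))
  have h2 := hasDerivAt_div_comp hr (hasDerivAt_ni w (yy r))
  exact h1.ofReal_comp.add (h2.ofReal_comp.mul_const I)

theorem N2_re (w r : ℝ) : (N2 w r).re = aR w r := by simp [N2]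
theorem N2_im (w r : ℝ) : (N2 w r).im = aI w r := by simp [N2]

theorem D2 (w : ℝ) {r : ℝ} (hr : 0 < r) :
    N2' w r + (w:ℂ) + N2 w r ^ 2 + pp r * N2 w r =
      ((yy r ^ 2 * Dr w (yy r) : ℝ) : ℂ) + ((yy r ^ 2 * Di w (yy r) : ℝ) : ℂ) * I := by
  have hy : yy r * r ^ 2 = 1 := by simp only [yy]; field_simp
  have e1 : aR w r ^ 2 - aI w r ^ 2 = yy r * (nr w (yy r) ^ 2 - ni w (yy r) ^ 2) := by
    have : yy r = 1 / r ^ 2 := by simp [yy]
    simp only [aR, aI]
    set X := nr w (yy r)
    set Y := ni w (yy r)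
    rw [this]; field_simp
  have e2 : aR w r * aI w r = yy r * (nr w (yy r) * ni w (yy r)) := by
    have : yy r = 1 / r ^ 2 := by simp [yy]
    simp only [aR, aI]
    set X := nr w (yy r)
    set Y := ni w (yy r)
    rw [this]; field_simp
  have e3 : 12 / r * aR w r = 12 * (yy r * nr w (yy r)) := by
    have : yy r = 1 / r ^ 2 := by simp [yy]
    simp only [aR]
    set X := nr w (yy r)
    rw [this]; field_simp
  have e4 : 12 / r * aI w r = 12 * (yy r * ni w (yy r)) := by
    have : yy r = 1 / r ^ 2 := by simp [yy]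
    simp only [aI]
    set X := ni w (yy r)
    rw [this]; field_simp
  have e5 : r / 2 * aR w r = nr w (yy r) / 2 := by simp only [aR]; field_simp
  have e6 : r / 2 * aI w r = ni w (yy r) / 2 := by simp only [aI]; field_simp
  apply Complex.ext
  · simp only [N2, N2', pp, pow_two (_ : ℂ), Complex.add_re, Complex.mul_re, Complex.add_im,
      Complex.mul_im, Complex.ofReal_re, Complex.ofReal_im, Complex.I_re, Complex.I_im]
    have e7 : -(yy r) * (2 * yy r * nr' w (yy r) + nr w (yy r)) + w +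
        (aR w r ^ 2 - aI w r ^ 2) + (12 / r * aR w r - r / 2 * aI w r)
        = yy r ^ 2 * Dr w (yy r) := by
      rw [e1, e3, e6]
      simp only [nr, ni, nr', Dr, Tr, Ti, n3r, n3i]
      ring
    linear_combination e7
  · simp only [N2, N2', pp, pow_two (_ : ℂ), Complex.add_re, Complex.mul_re, Complex.add_im,
      Complex.mul_im, Complex.ofReal_re, Complex.ofReal_im, Complex.I_re, Complex.I_im]
    have e7 : -(yy r) * (2 * yy r * ni' w (yy r) + ni w (yy r)) +
        2 * (aR w r * aI w r) + (12 / r * aI w r + r / 2 * aR w r)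
        = yy r ^ 2 * Di w (yy r) := by
      rw [e2, e4, e5]
      simp only [nr, ni, ni', Di, Tr, Ti, n3r, n3i]
      ring
    linear_combination e7

/-- the allowed defect -/
theorem allowed (w : ℝ) {r : ℝ} (hr : 0 < r) :
    (yy r * (2 * yy r * nr' w (yy r) + nr w (yy r))) / 8 +
      (12 / r + 2 * aR w r) * (-(aR w r) / 8) - (-(aR w r) / 8) ^ 2 =
      yy r ^ 2 * (1/8 * Aa w (yy r)) := by
  have e1 : aR w r ^ 2 = yy r * nr w (yy r) ^ 2 := by
    have : yy r = 1 / r ^ 2 := by simp [yy]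
    simp only [aR]
    set X := nr w (yy r)
    rw [this]; field_simp
  have e3 : 12 / r * aR w r = 12 * (yy r * nr w (yy r)) := by
    have : yy r = 1 / r ^ 2 := by simp [yy]
    simp only [aR]
    set X := nr w (yy r)
    rw [this]; field_simp
  have e4 : (12 / r + 2 * aR w r) * (-(aR w r) / 8) - (-(aR w r) / 8) ^ 2 =
      -(12 / r * aR w r) / 8 - (17/64) * aR w r ^ 2 := by ring
  rw [add_sub_assoc, e4, e1, e3]
  simp only [nr, nr', Aa, Tr, n3r]
  ring

end Vale.Agent.P139.H560
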