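import Vale.Agent.P139.H560.Mono2
import Vale.Agent.P139.H460.PSpec

/-!
# `|Q_∞|` is strictly decreasing outside the core: final statements
-/

open Set Filter Topology ComplexConjugate Complex

namespace Vale.Agent.P139.H560

/-! ## the starting point of the second phase -/

/-- the interval for `y` at the start -/
def y0I : Iv := ⟨(90346 * (sc:ℤ)) / 1000000, -((-(90359 * (sc:ℤ))) / 1000000)⟩
def env0 : ℕ → Iv := fun k => if k = 0 then y0I else wI

def chk0 : Bool :=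
  let t := E.Tr.iev env0
  let s := E.Ti.iev env0
  decide (-(13943 * (sc:ℤ)) ≤ 10000 * t.lo) && (decide (10000 * t.hi ≤ -(13744 * (sc:ℤ))) &&
  (decide (-(148305 * (sc:ℤ)) ≤ 10000 * s.lo) && decide (10000 * s.hi ≤ -(148142 * (sc:ℤ)))))

theorem chk0_true : chk0 = true := by decide +kernel

theorem start_bounds {w y : ℝ} (hw1 : 0.67402 ≤ w) (hw2 : w ≤ 0.67423) (hy1 : 0.090346 ≤ y)
    (hy2 : y ≤ 0.090359) :
    -1.3943 ≤ Tr w y ∧ Tr w y ≤ -1.3744 ∧ -14.8305 ≤ Ti w y ∧ Ti w y ≤ -14.8142 := by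
  have hs := sc_pos
  have hmy : Iv.Mem y y0I := by
    constructor
    · have h := Int.ediv_mul_le (90346 * (sc:ℤ)) (show (1000000:ℤ) ≠ 0 by norm_num)
      have h' : (((90346 * (sc:ℤ)) / 1000000 : ℤ) : ℝ) * 1000000 ≤ 90346 * sc := by exact_mod_cast h
      simp only [y0I]
      nlinarith
    · have h := Int.ediv_mul_le (-(90359 * (sc:ℤ))) (show (1000000:ℤ) ≠ 0 by norm_num)
      have h' : (((-(90359 * (sc:ℤ))) / 1000000 : ℤ) : ℝ) * 1000000 ≤ -(90359 * sc) := by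
        exact_mod_cast h
      simp only [y0I]
      push_cast
      nlinarith
  have hm : ∀ k, Iv.Mem ((fun k : ℕ => if k = 0 then y else w) k) (env0 k) := by
    intro k
    by_cases hk : k = 0
    · simp only [env0, hk, if_true]
      exact hmy
    · simp only [env0, hk, if_false]
      exact mem_wI hw1 hw2
  have hT := Ex.mem_iev hm E.Tr
  have hS := Ex.mem_iev hm E.Ti
  rw [ev_Tr] at hT
  rw [ev_Ti] at hS
  simp only [if_true, one_ne_zero, if_false] at hT hS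
  have hc := chk0_true
  unfold chk0 at hc
  simp only [Bool.and_eq_true, decide_eq_true_eq] at hc
  obtain ⟨c1, c2, c3, c4⟩ := hc
  have c1' : -(13943 * (sc:ℝ)) ≤ 10000 * ((E.Tr.iev env0).lo : ℝ) := by exact_mod_cast c1
  have c2' : 10000 * ((E.Tr.iev env0).hi : ℝ) ≤ -(13744 * (sc:ℝ)) := by exact_mod_cast c2
  have c3' : -(148305 * (sc:ℝ)) ≤ 10000 * ((E.Ti.iev env0).lo : ℝ) := by exact_mod_cast c3
  have c4' : 10000 * ((E.Ti.iev env0).hi : ℝ) ≤ -(148142 * (sc:ℝ)) := by exact_mod_cast c4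
  obtain ⟨t1, t2⟩ := hT
  obtain ⟨s1, s2⟩ := hS
  refine ⟨?_, ?_, ?_, ?_⟩
  · by_contra h; push Not at h
    have := mul_lt_mul_of_pos_right h hs
    linarith
  · by_contra h; push Not at h
    have := mul_lt_mul_of_pos_right h hs
    linarith
  · by_contra h; push Not at h
    have := mul_lt_mul_of_pos_right h hs
    linarith
  · by_contra h; push Not at h
    have := mul_lt_mul_of_pos_right h hs
    linarith

theorem aR_neg {w r : ℝ} (hw1 : 0.67403 ≤ w) (hw2 : w ≤ 0.67422) (hr : 3.3267 ≤ r) :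
    0 ≤ yy r ∧ yy r ≤ 0.0905 ∧ aR w r < 0 := by
  have hr0 : 0 < r := by linarith
  have hy0 : 0 < yy r := by simp only [yy]; positivity
  have hy1 : yy r ≤ 0.0905 := by
    simp only [yy]
    rw [inv_le_comm₀ (by positivity) (by norm_num)]
    have := mul_le_mul hr hr (by norm_num) hr0.le
    have e : r ^ 2 = r * r := by ring
    rw [e]
    refine le_trans ?_ this
    norm_num
  refine ⟨hy0.le, hy1, ?_⟩
  have hT := (num_ineq (w := w) (by linarith) (by linarith) hy0.le hy1).2.2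
  simp only [aR, nr]
  exact div_neg_of_neg_of_pos (mul_neg_of_pos_of_neg hy0 hT) hr0

theorem phase2 {w r1 b : ℝ} (hw1 : 0.67403 ≤ w) (hw2 : w ≤ 0.67422) (hr1 : 3.3267 ≤ r1)
    (hb1 : r1 ≤ b)
    {Z Z1 : ℝ → ℂ} (cZ : ContinuousOn Z (Icc r1 b)) (cZ1 : ContinuousOn Z1 (Icc r1 b))
    (hZ : ∀ r ∈ Ioo r1 b, HasDerivAt Z (Z1 r) r)
    (hZ1 : ∀ r ∈ Ioo r1 b, HasDerivAt Z1 (-(pp r) * Z1 r - (w:ℂ) * Z r) r)
    (h0 : ‖Z1 r1 - N2 w r1 * Z r1‖ < (-(aR w r1) / 8) * ‖Z r1‖) :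
    ∀ r ∈ Icc r1 b, Z r ≠ 0 ∧ ‖Z1 r - N2 w r * Z r‖ ≤ (-(aR w r) / 8) * ‖Z r‖ := by
  have hpos : ∀ r ∈ Icc r1 b, 0 < r := fun r hr => by linarith [hr.1]
  have hda : ∀ r : ℝ, 0 < r → HasDerivAt (aR w)
      (-(yy r) * (2 * yy r * nr' w (yy r) + nr w (yy r))) r := fun r hr =>
    hasDerivAt_div_comp hr (hasDerivAt_nr w (yy r))
  have caR : ContinuousOn (aR w) (Icc r1 b) := fun r hr =>
    (hda r (hpos r hr)).continuousAt.continuousWithinAt
  obtain ⟨C, hC⟩ := isCompact_Icc.exists_bound_of_continuousOn caR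
  refine funnel (C := 2 * C) (p := pp) (q := fun _ => (w:ℂ)) (Na := N2 w) (Na' := N2' w)
    (ε := fun r => -(aR w r) / 8)
    (ε' := fun r => (yy r * (2 * yy r * nr' w (yy r) + nr w (yy r))) / 8)
    hb1 cZ cZ1 ?_ ?_ hZ hZ1 ?_ ?_ ?_ ?_ ?_ h0
  · exact fun r hr => (hasDerivAt_N2 w (hpos r hr)).continuousAt.continuousWithinAt
  · exact caR.neg.div_const 8
  · exact fun r hr => hasDerivAt_N2 w (hpos r (Ioo_subset_Icc_self hr))
  · intro r hr
    have := ((hda r (hpos r (Ioo_subset_Icc_self hr))).fun_neg).div_const 8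
    refine this.congr_deriv ?_
    ring
  · intro r hr
    have := (aR_neg hw1 hw2 (by linarith [hr.1] : 3.3267 ≤ r)).2.2
    linarith
  · intro r hr
    have hr0 : 0 < r := hpos r (Ioo_subset_Icc_self hr)
    have hy := aR_neg hw1 hw2 (by linarith [hr.1] : 3.3267 ≤ r)
    have hn := num_ineq (by linarith : 0.67402 ≤ w) (by linarith : w ≤ 0.67423) hy.1 hy.2.1
    rw [D2 w hr0, pp_re, N2_re, allowed w hr0]
    have hy0 : 0 < yy r := by simp only [yy]; positivity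
    rw [Complex.norm_add_mul_I]
    have e : (yy r ^ 2 * Dr w (yy r)) ^ 2 + (yy r ^ 2 * Di w (yy r)) ^ 2 =
        (yy r ^ 2) ^ 2 * (Dr w (yy r) ^ 2 + Di w (yy r) ^ 2) := by ring
    have hy2 : 0 < yy r ^ 2 := by positivity
    have hA := hn.1
    rw [e, Real.sqrt_lt' (by positivity)]
    have e2 : (yy r ^ 2 * (1 / 8 * Aa w (yy r))) ^ 2 =
        (yy r ^ 2) ^ 2 * (1 / 8 * Aa w (yy r)) ^ 2 := by ring
    rw [e2]
    exact mul_lt_mul_of_pos_left hn.2.1 (by positivity)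
  · intro r hr
    have h1 := hC r (Ioo_subset_Icc_self hr)
    rw [Real.norm_eq_abs] at h1
    have h2 := abs_le.1 h1
    have h3 := (aR_neg hw1 hw2 (by linarith [hr.1] : 3.3267 ≤ r)).2.2
    rw [N2_re]
    linarith [h2.1, h2.2]

/-- comparison of the two centres at `R + 1/16` -/
theorem centres {w R : ℝ} (hw1 : 0.67403 ≤ w) (hw2 : w ≤ 0.67422) (hR1 : 3.26423 ≤ R)
    (hR2 : R ≤ 3.26444) :
    ‖N1 w R (R + 1/16) - N2 w (R + 1/16)‖ ≤ 0.00155 ∧ aR w (R + 1/16) ≤ -0.0373 := by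
  set r := R + 1/16 with hr
  have hr1 : 3.32673 ≤ r := by rw [hr]; linarith
  have hr2 : r ≤ 3.32694 := by rw [hr]; linarith
  have hr0 : 0 < r := by linarith
  have hy0 : 0 < yy r := by simp only [yy]; positivity
  have hy1 : yy r ≤ 0.090359 := by
    simp only [yy]
    rw [inv_le_comm₀ (by positivity) (by norm_num)]
    have := mul_le_mul hr1 hr1 (by norm_num) hr0.le
    have e : r ^ 2 = r * r := by ring
    rw [e]
    refine le_trans ?_ this
    norm_num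
  have hy2 : 0.090346 ≤ yy r := by
    simp only [yy]
    rw [le_inv_comm₀ (by norm_num) (by positivity)]
    have := mul_le_mul hr2 hr2 hr0.le (by norm_num)
    have e : r ^ 2 = r * r := by ring
    rw [e]
    refine le_trans this ?_
    norm_num
  obtain ⟨t1, t2, s1, s2⟩ := start_bounds (w := w) (by linarith) (by linarith) hy2 hy1
  have hx : r - R = 1/16 := by rw [hr]; ring
  -- bounds for the real part
  have p1 : -(0.090359 * 1.3943) ≤ yy r * Tr w (yy r) := by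
    have h1 : yy r * (-Tr w (yy r)) ≤ 0.090359 * 1.3943 :=
      mul_le_mul hy1 (by linarith) (by linarith) (by norm_num)
    linarith
  have p2 : yy r * Tr w (yy r) ≤ -(0.090346 * 1.3744) := by
    have h1 : 0.090346 * 1.3744 ≤ yy r * (-Tr w (yy r)) :=
      mul_le_mul hy2 (by linarith) (by norm_num) hy0.le
    linarith
  have q1 : -(0.090359 * 14.8305) ≤ yy r * Ti w (yy r) := by
    have h1 : yy r * (-Ti w (yy r)) ≤ 0.090359 * 14.8305 :=
      mul_le_mul hy1 (by linarith) (by linarith) (by norm_num)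
    linarith
  have q2 : yy r * Ti w (yy r) ≤ -(0.090346 * 14.8142) := by
    have h1 : 0.090346 * 14.8142 ≤ yy r * (-Ti w (yy r)) :=
      mul_le_mul hy2 (by linarith) (by norm_num) hy0.le
    linarith
  have a1 : -0.03788 ≤ aR w r := by
    simp only [aR, nr]
    rw [le_div_iff₀ hr0]
    linarith
  have a2 : aR w r ≤ -0.0373 := by
    simp only [aR, nr]
    rw [div_le_iff₀ hr0]
    linarith
  have b1 : 0.00239 ≤ aI w r := by
    simp only [aI, ni]
    rw [le_div_iff₀ hr0]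
    linarith
  have b2 : aI w r ≤ 0.00302 := by
    simp only [aI, ni]
    rw [div_le_iff₀ hr0]
    linarith
  refine ⟨?_, a2⟩
  refine (Complex.norm_le_abs_re_add_abs_im _).trans ?_
  rw [Complex.sub_re, Complex.sub_im, N1_re, N1_im, N2_re, N2_im, hx]
  have c1 : |-w * (1 / 16) + 5 / 4 * (1 / 16) ^ 2 - aR w r| ≤ 0.00064 := by
    rw [abs_le]; constructor <;> linarith
  have c2 : |11 / 20 * (1 / 16) ^ 2 - aI w r| ≤ 0.0009 := by
    rw [abs_le]; constructor <;> linarith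
  linarith

/-- Re of `conj Z * Z1` in terms of the approximate logarithmic derivative -/
theorem re_le_of_disc {z z1 n : ℂ} {e : ℝ} (h : ‖z1 - n * z‖ ≤ e * ‖z‖) :
    (conj z * z1).re ≤ (n.re + e) * ‖z‖ ^ 2 := by
  have e1 : z1 = (z1 - n * z) + n * z := by ring
  have e2 : (conj z * z1).re = (conj z * (z1 - n * z)).re + n.re * ‖z‖ ^ 2 := by
    rw [← Complex.normSq_eq_norm_sq, Complex.normSq_apply]
    simp only [Complex.mul_re, Complex.mul_im, Complex.conj_re, Complex.conj_im, Complex.sub_re,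
      Complex.sub_im]
    ring
  have e3 : (conj z * (z1 - n * z)).re ≤ ‖z‖ * (e * ‖z‖) := by
    refine (Complex.re_le_norm _).trans ?_
    rw [norm_mul, Complex.norm_conj]
    exact mul_le_mul_of_nonneg_left h (norm_nonneg _)
  rw [e2]
  nlinarith

/-- **Main theorem of this file.** -/
theorem hardwall_main {w R b : ℝ} (hw1 : 0.67403 ≤ w) (hw2 : w ≤ 0.67422) (hR1 : 3.26423 ≤ R)
    (hR2 : R ≤ 3.26444) {Z Z1 : ℝ → ℂ} (cZ : ContinuousOn Z (Icc R b))
    (cZ1 : ContinuousOn Z1 (Icc R b)) (hZ : ∀ r ∈ Ioo R b, HasDerivAt Z (Z1 r) r)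
    (hZ1 : ∀ r ∈ Ioo R b, HasDerivAt Z1 (-(pp r) * Z1 r - (w:ℂ) * Z r) r)
    (h1 : Z R = 1) (h2 : Z1 R = 0) :
    (∀ r ∈ Icc R b, Z r ≠ 0) ∧
    (∀ r ∈ Ioc R b, (conj (Z r) * Z1 r).re < 0) ∧
    (∀ r ∈ Icc R b, r ≤ R + 1/16 → (conj (Z r) * Z1 r).re ≤ -((r - R) / 2) * ‖Z r‖ ^ 2) ∧
    (∀ r ∈ Icc (R + 1/16) b, ‖Z1 r - N2 w r * Z r‖ ≤ (-(aR w r) / 8) * ‖Z r‖) := by
  -- phase one, on `[R, c]` with `c ≤ R + 1/16`
  have ph1 : ∀ δ : ℝ, 0 < δ → δ ≤ 1/100 → ∀ c, R ≤ c → c ≤ b → c ≤ R + 1/16 → Z c ≠ 0 ∧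
      ‖Z1 c - N1 w R c * Z c‖ ≤ (δ + (c - R) ^ 2 / 80 + 7/2 * (c - R) ^ 3) * ‖Z c‖ := by
    intro δ hδ0 hδ1 c hc1 hc2 hc3
    have hsub : Icc R c ⊆ Icc R b := Icc_subset_Icc_right hc2
    exact phase1 hw1 hw2 hR1 hR2 hc1 hc3 hδ0 hδ1 (cZ.mono hsub) (cZ1.mono hsub)
      (fun r hr => hZ r ⟨hr.1, hr.2.trans_le hc2⟩) (fun r hr => hZ1 r ⟨hr.1, hr.2.trans_le hc2⟩)
      h1 h2 c (right_mem_Icc.2 hc1)
  have ph1b : ∀ c ∈ Icc R b, c ≤ R + 1/16 →
      (conj (Z c) * Z1 c).re ≤ -((c - R) / 2) * ‖Z c‖ ^ 2 := by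
    intro c hc hc3
    rcases eq_or_lt_of_le hc.1 with h | h
    · rw [← h]; simp [h2]
    · have hx0 : 0 < c - R := by linarith
      have hx1 : c - R ≤ 1/16 := by linarith
      have hp := (ph1 ((c - R) / 100) (by positivity) (by linarith) c hc.1 hc.2 hc3).2
      have hq := re_le_of_disc hp
      refine hq.trans (mul_le_mul_of_nonneg_right ?_ (by positivity))
      rw [N1_re]
      have e1 : (c - R) ^ 2 ≤ (c - R) * (1/16) := by
        have : (c - R) ^ 2 = (c - R) * (c - R) := by ring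
        rw [this]; exact mul_le_mul_of_nonneg_left hx1 hx0.le
      have e2 : (c - R) ^ 3 ≤ (c - R) * (1/256) := by
        have h3 : (c - R) ^ 3 = (c - R) ^ 2 * (c - R) := by ring
        have h4 := mul_le_mul e1 hx1 hx0.le (by positivity)
        rw [h3]; linarith
      have e3 : 0.67403 * (c - R) ≤ w * (c - R) := mul_le_mul_of_nonneg_right hw1 hx0.le
      linarith
  -- phase two
  have ph2 : ∀ r ∈ Icc (R + 1/16) b, Z r ≠ 0 ∧
      ‖Z1 r - N2 w r * Z r‖ ≤ (-(aR w r) / 8) * ‖Z r‖ := by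
    intro r hr
    have hb : R + 1/16 ≤ b := hr.1.trans hr.2
    have hsub : Icc (R + 1/16) b ⊆ Icc R b := Icc_subset_Icc_left (by linarith)
    have hp := ph1 (1/1000) (by norm_num) (by norm_num) (R + 1/16) (by linarith) hb le_rfl
    have hc := centres hw1 hw2 hR1 hR2
    refine phase2 hw1 hw2 (by linarith : (3.3267:ℝ) ≤ R + 1/16) hb (cZ.mono hsub) (cZ1.mono hsub)
      (fun r hr => hZ r ⟨by linarith [hr.1], hr.2⟩) (fun r hr => hZ1 r ⟨by linarith [hr.1], hr.2⟩)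
      ?_ r hr
    have hZn : 0 < ‖Z (R + 1/16)‖ := norm_pos_iff.2 hp.1
    have hx : R + 1/16 - R = 1/16 := by ring
    rw [hx] at hp
    have e1 : Z1 (R + 1/16) - N2 w (R + 1/16) * Z (R + 1/16) =
        (Z1 (R + 1/16) - N1 w R (R + 1/16) * Z (R + 1/16)) +
        (N1 w R (R + 1/16) - N2 w (R + 1/16)) * Z (R + 1/16) := by ring
    rw [e1]
    refine lt_of_le_of_lt (norm_add_le _ _) ?_
    rw [norm_mul]
    have e2 := mul_le_mul_of_nonneg_right hc.1 hZn.le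
    have e3 := hp.2
    have e4 : 0.0373 / 8 * ‖Z (R + 1/16)‖ ≤ -(aR w (R + 1/16)) / 8 * ‖Z (R + 1/16)‖ :=
      mul_le_mul_of_nonneg_right (by linarith [hc.2]) hZn.le
    have e5 : (1 / 1000 + (1 / 16) ^ 2 / 80 + 7 / 2 * (1 / 16) ^ 3 : ℝ) * ‖Z (R + 1/16)‖ ≤
        0.002 * ‖Z (R + 1/16)‖ := mul_le_mul_of_nonneg_right (by norm_num) hZn.le
    linarith
  refine ⟨?_, ?_, ph1b, fun r hr => (ph2 r hr).2⟩
  · intro r hr
    rcases le_total r (R + 1/16) with h | h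
    · exact (ph1 (1/1000) (by norm_num) (by norm_num) r hr.1 hr.2 h).1
    · exact (ph2 r ⟨h, hr.2⟩).1
  · intro r hr
    rcases le_total r (R + 1/16) with h | h
    · have h3 := ph1b r ⟨hr.1.le, hr.2⟩ h
      have h4 := (ph1 (1/1000) (by norm_num) (by norm_num) r hr.1.le hr.2 h).1
      have h5 : 0 < ‖Z r‖ := norm_pos_iff.2 h4
      have h6 : 0 < (r - R) / 2 := by linarith [hr.1]
      have : 0 < (r - R) / 2 * ‖Z r‖ ^ 2 := by positivity
      linarith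
    · obtain ⟨h3, h4⟩ := ph2 r ⟨h, hr.2⟩
      have h5 : 0 < ‖Z r‖ := norm_pos_iff.2 h3
      have h6 := re_le_of_disc h4
      rw [N2_re] at h6
      have h7 := (aR_neg hw1 hw2 (by linarith : (3.3267:ℝ) ≤ r)).2.2
      have h8 : (aR w r + -(aR w r) / 8) * ‖Z r‖ ^ 2 < 0 :=
        mul_neg_of_neg_of_pos (by linarith) (by positivity)
      linarith

/-- `|Z|` is strictly decreasing on `[R, b]`. -/
theorem hardwall_strictAnti {w R b : ℝ} (hw1 : 0.67403 ≤ w) (hw2 : w ≤ 0.67422)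
    (hR1 : 3.26423 ≤ R) (hR2 : R ≤ 3.26444) {Z Z1 : ℝ → ℂ} (cZ : ContinuousOn Z (Icc R b))
    (cZ1 : ContinuousOn Z1 (Icc R b)) (hZ : ∀ r ∈ Ioo R b, HasDerivAt Z (Z1 r) r)
    (hZ1 : ∀ r ∈ Ioo R b, HasDerivAt Z1 (-(pp r) * Z1 r - (w:ℂ) * Z r) r)
    (h1 : Z R = 1) (h2 : Z1 R = 0) : StrictAntiOn (fun r => ‖Z r‖) (Icc R b) := by
  have hm := hardwall_main hw1 hw2 hR1 hR2 cZ cZ1 hZ hZ1 h1 h2
  have key : StrictAntiOn (fun r => ‖Z r‖ ^ 2) (Icc R b) := by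
    have cc : ContinuousOn (fun r => ‖Z r‖ ^ 2) (Icc R b) := cZ.norm.pow 2
    apply strictAntiOn_of_deriv_neg (convex_Icc R b) cc
    intro r hr
    rw [interior_Icc] at hr
    have hd := (hZ r hr).norm_sq
    rw [hd.deriv, Complex.inner, mul_comm (Z1 r)]
    have := hm.2.1 r ⟨hr.1, hr.2.le⟩
    linarith
  intro x hx y hy hxy
  have := key hx hy hxy
  exact lt_of_pow_lt_pow_left₀ 2 (norm_nonneg _) this

/-- quantitative decay: `|Z r| ≤ exp (-η²/4)` for `r ≥ R + η`, `0 ≤ η ≤ 1/16`. -/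
theorem hardwall_le_exp {w R b : ℝ} (hw1 : 0.67403 ≤ w) (hw2 : w ≤ 0.67422)
    (hR1 : 3.26423 ≤ R) (hR2 : R ≤ 3.26444) {Z Z1 : ℝ → ℂ} (cZ : ContinuousOn Z (Icc R b))
    (cZ1 : ContinuousOn Z1 (Icc R b)) (hZ : ∀ r ∈ Ioo R b, HasDerivAt Z (Z1 r) r)
    (hZ1 : ∀ r ∈ Ioo R b, HasDerivAt Z1 (-(pp r) * Z1 r - (w:ℂ) * Z r) r)
    (h1 : Z R = 1) (h2 : Z1 R = 0) {η : ℝ} (hη0 : 0 ≤ η) (hη1 : η ≤ 1/16) :
    ∀ r ∈ Icc (R + η) b, ‖Z r‖ ≤ Real.exp (-(η ^ 2) / 4) := by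
  intro r hr
  have hm := hardwall_main hw1 hw2 hR1 hR2 cZ cZ1 hZ hZ1 h1 h2
  have hanti := hardwall_strictAnti hw1 hw2 hR1 hR2 cZ cZ1 hZ hZ1 h1 h2
  have hRη : R + η ≤ b := hr.1.trans hr.2
  have hstep : ‖Z r‖ ≤ ‖Z (R + η)‖ :=
    hanti.antitoneOn ⟨by linarith, hRη⟩ ⟨by linarith [hr.1], hr.2⟩ hr.1
  refine hstep.trans ?_
  set g : ℝ → ℝ := fun r => ‖Z r‖ ^ 2 * Real.exp ((r - R) ^ 2 / 2) with hg
  have hsub : Icc R (R + η) ⊆ Icc R b := Icc_subset_Icc_right hRη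
  have cg : ContinuousOn g (Icc R (R + η)) := ((cZ.mono hsub).norm.pow 2).mul (by fun_prop)
  have hgd : ∀ r ∈ interior (Icc R (R + η)), HasDerivAt g
      (2 * inner ℝ (Z r) (Z1 r) * Real.exp ((r - R) ^ 2 / 2) +
        ‖Z r‖ ^ 2 * (Real.exp ((r - R) ^ 2 / 2) * (r - R))) r := by
    intro r hr
    rw [interior_Icc] at hr
    have h1 := (hZ r ⟨hr.1, hr.2.trans_le hRη⟩).norm_sq
    have h2 : HasDerivAt (fun r : ℝ => Real.exp ((r - R) ^ 2 / 2))
        (Real.exp ((r - R) ^ 2 / 2) * (r - R)) r := by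
      have h3 : HasDerivAt (fun r : ℝ => (r - R) ^ 2 / 2) (r - R) r := by
        have h4 := (((hasDerivAt_id' r).sub_const R).fun_pow 2).div_const 2
        refine h4.congr_deriv ?_
        simp
      exact h3.exp
    exact h1.mul h2
  have anti : AntitoneOn g (Icc R (R + η)) := by
    apply antitoneOn_of_deriv_nonpos (convex_Icc _ _) cg
    · intro r hr
      exact (hgd r hr).differentiableAt.differentiableWithinAt
    · intro r hr
      rw [(hgd r hr).deriv, Complex.inner, mul_comm (Z1 r)]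
      rw [interior_Icc] at hr
      have h3 := hm.2.2.1 r ⟨hr.1.le, (hr.2.trans_le hRη).le⟩ (by linarith [hr.2])
      have hE := Real.exp_pos ((r - R) ^ 2 / 2)
      have : 2 * (conj (Z r) * Z1 r).re * Real.exp ((r - R) ^ 2 / 2) +
        ‖Z r‖ ^ 2 * (Real.exp ((r - R) ^ 2 / 2) * (r - R)) =
        (2 * (conj (Z r) * Z1 r).re + (r - R) * ‖Z r‖ ^ 2) * Real.exp ((r - R) ^ 2 / 2) := by ring
      rw [this]
      exact mul_nonpos_of_nonpos_of_nonneg (by linarith) hE.le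
  have hfin := anti (left_mem_Icc.2 (by linarith)) (right_mem_Icc.2 (by linarith))
    (by linarith : R ≤ R + η)
  have e0 : R + η - R = η := by ring
  simp only [hg, sub_self, h1, norm_one, e0] at hfin
  norm_num at hfin
  have h5 : ‖Z (R + η)‖ ^ 2 ≤ Real.exp (-(η ^ 2) / 4) ^ 2 := by
    rw [← Real.exp_nat_mul]
    have h6 : ‖Z (R + η)‖ ^ 2 * Real.exp (η ^ 2 / 2) * Real.exp (-(η ^ 2 / 2)) ≤
        1 * Real.exp (-(η ^ 2 / 2)) :=
      mul_le_mul_of_nonneg_right hfin (Real.exp_pos _).le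
    rw [mul_assoc, ← Real.exp_add] at h6
    simp only [add_neg_cancel, Real.exp_zero, mul_one, one_mul] at h6
    refine h6.trans (le_of_eq ?_)
    congr 1
    push_cast
    ring
  exact (pow_le_pow_iff_left₀ (norm_nonneg _) (Real.exp_pos _).le two_ne_zero).1 h5

end Vale.Agent.P139.H560
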